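import Vale.Agent.P167.N.Base.Vr
import Vale.Agent.P167.H722.CrB
import Vale.Agent.P167.H562.Q.CB2

/-!
# P167, the range `0 < q < 1`: crossing clusters near the boundary of a domain

`crossB`: the number of the pairwise disjoint segments which cross an annulus has an exponential moment,
for all domains such that the frozen squares of each box in the annulus have the property `OneC`.
-/

set_option autoImplicit false

namespace Vale.Agent.P167.N.H562.QM

open Vale.Agent.P167.H562.QM Vale.Agent.P167.H562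

open Finset Filter Topology MeasureTheory Vale.Agent.P167.FK Vale.Agent.P167.FKA
open Vale.Agent.P167.H166 (bxx mem_bxx)
open Vale.Agent.P167.H722 (crB blk_of_oneC bxx_sub)

variable {Q : ℝ} {D : Finset (ℤ × ℤ)} {η : Cfg} {x : ℤ × ℤ} {r R : ℤ}

/-- **The number of the disjoint crossing segments, up to the boundary.** -/
theorem crossB (hQ : Kit Q) (_ : RSW Q) : ∃ (n : ℕ) (l C : ℝ), 4 ≤ n ∧ 0 < l ∧ 0 < C ∧
    ∀ (x : ℤ × ℤ) (r : ℤ), 1 ≤ r → ∀ (D : Finset (ℤ × ℤ)) (η : Cfg) (G : Cfg → ℝ), Good η →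
      (∀ (y : ℤ × ℤ) (a : ℤ), 1 ≤ a → bxx y a ⊆ bxx x (((n : ℤ) + 1) * r) → OneC y a D η) →
      (∀ ω, 0 ≤ G ω) → Ind (D ∩ bxx x (((n : ℤ) + 2) * r)) G →
      Ex Q D η (fun ω => G ω * Real.exp (l * (ZC n x r ω : ℝ))) ≤ C * Ex Q D η G := by
  obtain ⟨l, C, hl, hC, h⟩ := crB hQ.pos hQ.le (vr hQ)
  refine ⟨7, l / 2, C, by norm_num, by linarith, hC, fun x r hr D η G hη hone hG0 hG => ?_⟩
  have h1 := h x r (((7 : ℕ) + 1) * r) hr (by push_cast; omega) D η G hη
    (fun y hy => blk_of_oneC (hone y r hr (hy.trans (bxx_sub (by push_cast; omega))))) hG0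
    (Ind.mono (Finset.inter_subset_inter_left (bxx_sub (by push_cast; omega))) hG)
  refine le_trans (le_of_eq (FKA.Ex_congr fun S _ => ?_)) h1
  congr 2
  unfold ZC
  push_cast
  ring

end Vale.Agent.P167.N.H562.QM
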