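import Vale.Agent.P167.N.Kit
import Vale.Agent.P167.N.H562.Q.CB2
import Vale.Agent.P167.H562.Q.CB3

/-! generated from Vale.Agent.P167.H562.Q.CB3 (q < 1 port) -/

set_option autoImplicit false

namespace Vale.Agent.P167.N.H562.QM

open Vale.Agent.P167.H562.QM Vale.Agent.P167.H562

open Finset Filter Topology MeasureTheory Vale.Agent.P167.FK

open Vale.Agent.P145.FB (PStep PConn)

open Vale.Agent.P167.FKA (Loc Ind mem_bxx_sh shi_sh sh_shi)

open Vale.Agent.P167.H166 (bxx mem_bxx)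

open Vale.Agent.P167.H45 (gp gp_disj nm_sub_le)

open Vale.Agent.P167.H562 (Em Em_mono Em_holder)

open Vale.Agent.P167.H562.GL (Em_colP loc_integrable)

open Relation

variable {Q : ℝ} {D : Finset (ℤ × ℤ)} {η : Cfg} {x b : ℤ × ℤ} {r R R' : ℤ} {pl pr : Bool}

/-- **Large segments near a zone, up to the boundary.** The number `N` of the pairwise disjoint segments
of diameter at least `κ ρ` which visit the zone `A`: exponential moments, for all domains such that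
the boxes near the zone have the property `OneC`, and all factors `G` which do not depend on the squares
of the domain near the zone. -/
theorem macro_B (hQ : Kit Q) (h : RSW Q) (κ R s : ℝ) (m : ℕ) (hκ : 0 < κ) (hR : 0 ≤ R) :
    ∃ ε C ρ0 : ℝ, 0 < ε ∧ 0 < C ∧ 0 < ρ0 ∧ ∀ ρ : ℝ, ρ0 ≤ ρ → ∀ (c : ℤ × ℤ) (A : Finset (ℤ × ℤ)),
      (∀ v ∈ A, (nm (v - c) : ℝ) ≤ R * ρ) → ∀ (x : Fin m → ℤ × ℤ), ∃ N : Cfg → ℕ,
      (∀ ω ω' : Cfg, (∀ v, Nr A (κ * ρ) v →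
        (∀ i, ε * ρ < (nm (v - x i) : ℝ)) → ω v = ω' v) → N ω = N ω') ∧
      (∀ ω, MajA A (κ * ρ) ω (N ω)) ∧
      ∀ (D : Finset (ℤ × ℤ)) (η : Cfg), Good η →
        (∀ (y : ℤ × ℤ) (a : ℤ), 1 ≤ a → (∀ v ∈ bxx y a, Nr A (κ * ρ) v) → OneC y a D η) →
        ∀ G : Cfg → ℝ, (∀ ω, 0 ≤ G ω) →
        (∀ ω ω' : Cfg, (∀ v, ¬ (v ∈ D ∧ Nr A (κ * ρ) v) → ω v = ω' v) → G ω = G ω') →
        Ex Q D η (fun ω => G ω * Real.exp (s * (N ω : ℝ))) ≤ C * Ex Q D η G := by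
  have hQ_pos := hQ.pos
  classical
  have hQ0 : 0 < Q := by linarith
  obtain ⟨n0, l0, C0, hn4, hl0, hC0, hcr⟩ := crossB hQ h
  have hn4' : (4 : ℤ) ≤ n0 := by exact_mod_cast hn4
  have hk : 2 ≤ (n0 : ℤ) + 2 := by omega
  have hloc : ∀ (x : ℤ × ℤ) (r : ℤ), 1 ≤ r → ∀ ω ω' : Cfg,
      (∀ v, nm (v - x) ≤ ((n0 : ℤ) + 2) * r → ω v = ω' v) → ZC n0 x r ω = ZC n0 x r ω' :=
    fun x r hr ω ω' hω => ZC_loc n0 x (by omega) hω
  obtain ⟨θ, b, hθ, hb, hEm⟩ := Em_crossO hk (l := l0) hl0 (C := C0) hC0 hloc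
  obtain ⟨n, hn⟩ := exists_nat_ge (|s| / θ)
  have hsn : |s| ≤ θ * (n + 1 : ℕ) := by
    rw [div_le_iff₀ hθ] at hn
    push_cast
    nlinarith
  set N : ℕ := n + 1 with hN
  have hN0 : 0 < N := by omega
  obtain ⟨ε, Dc, ρ0, hε, hρ0, hdet⟩ := macro_detA hk hloc
    (fun x r hr ω 𝓕 h1 h2 h3 => ZC_seg n0 x hr ω 𝓕 h1 h2 h3) κ R m N hN0 hκ hR
  refine ⟨ε, Real.exp (Dc * b), ρ0, hε, Real.exp_pos _, hρ0, fun ρ hρ c A hA x => ?_⟩
  obtain ⟨r, I, hr1, hI, hI0, hIU, h1, h2⟩ := hdet ρ hρ c A hA x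
  refine ⟨fun ω => (∑ i ∈ I, ZC n0 (gp r i.2) r ω) / N, h1, h2, fun D η hη hone G hG0 hG => ?_⟩
  have hnear : ∀ i ∈ I, ∀ v ∈ bxx (gp r i.2) (((n0 : ℤ) + 2) * r), Nr A (κ * ρ) v :=
    fun i hi v hv => hIU i hi v (mem_bxx.1 hv)
  rcases (FKA.Ex_nonneg (D := D) (η := η) hQ0 fun S _ => hG0 _).eq_or_lt with h0 | hpos
  · -- `G` vanishes
    have hz : ∀ S ⊆ D, G (cf D η S) = 0 := by
      intro S hS
      have hZ := FKA.Zq_pos hQ0 D η
      have hs : ∑ S ∈ D.powerset, Q ^ LD D (cf D η S) * G (cf D η S) = 0 := by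
        unfold Ex at h0
        rw [eq_comm, div_eq_zero_iff] at h0
        rcases h0 with h0 | h0
        · exact h0
        · exact absurd h0 hZ.ne'
      rw [Finset.sum_eq_zero_iff_of_nonneg fun S _ => mul_nonneg (pow_pos hQ0 _).le (hG0 _)] at hs
      have := hs S (Finset.mem_powerset.2 hS)
      rcases mul_eq_zero.1 this with h3 | h3
      · exact absurd h3 (pow_pos hQ0 _).ne'
      · exact h3
    rw [← h0, mul_zero]
    refine le_of_eq ?_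
    have : Ex Q D η (fun ω => G ω * Real.exp (s * (((∑ i ∈ I, ZC n0 (gp r i.2) r ω) / N : ℕ) : ℝ)))
        = Ex Q D η (fun _ => 0) := FKA.Ex_congr fun S hS => by rw [hz S hS, zero_mul]
    rw [this, FKA.Ex_const hQ0]
  obtain ⟨ν, hνp, hν⟩ := exists_law hQ0 hG0 hpos
  set W : Finset (ℤ × ℤ) := I.biUnion fun i => bxx (gp r i.2) (((n0 : ℤ) + 2) * r) with hW
  have hEmI := hEm ν W hνp r hr1 (I.image Prod.snd) (fun i hi v hv => by
      obtain ⟨j, hj, rfl⟩ := Finset.mem_image.1 hi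
      exact Finset.mem_biUnion.2 ⟨j, hj, hv⟩) (fun i hi G2 hG20 _ hG2 => by
      obtain ⟨j, hj, rfl⟩ := Finset.mem_image.1 hi
      rw [hν, hν, ← mul_div_assoc]
      refine div_le_div_of_nonneg_right ?_ hpos.le
      have h5 := hcr (gp r j.2) r hr1 D η (fun ω => G ω * G2 ω) hη
        (fun y a ha hya => hone y a ha fun v hv => hnear j hj v (by
          have hv2 := mem_bxx.1 (hya hv)
          rw [mem_bxx]
          nlinarith)) (fun ω => mul_nonneg (hG0 ω) (hG20 ω))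
        (FKA.Ind.mul (fun ω ω' h' => hG ω ω' fun v hv => h' v fun hv' => hv
          ⟨(Finset.mem_inter.1 hv').1, hnear j hj v (Finset.mem_inter.1 hv').2⟩)
          (FKA.Ind.mono Finset.inter_subset_right hG2))
      refine le_trans (le_of_eq ?_) h5
      refine FKA.Ex_congr fun S _ => ?_
      ring)
  have hsum : ∀ ω, ∑ i ∈ I, (ZC n0 (gp r i.2) r ω : ℝ) =
      ∑ i ∈ I.image Prod.snd, (ZC n0 (gp r i) r ω : ℝ) := by
    intro ω
    rw [Finset.sum_image]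
    intro i hi j hj hij
    exact Prod.ext ((hI0 i hi).trans (hI0 j hj).symm) hij
  have hcard : (((I.image Prod.snd).card : ℕ) : ℝ) ≤ Dc :=
    le_trans (by exact_mod_cast Finset.card_image_le) hI
  have hfin : Em ν (fun ω => s * (((∑ i ∈ I, ZC n0 (gp r i.2) r ω) / N : ℕ) : ℝ)) ≤
      ENNReal.ofReal (Real.exp (Dc * b)) := by
    refine le_trans ?_ (hEmI.trans (ENNReal.ofReal_le_ofReal (Real.exp_le_exp.2
      (mul_le_mul_of_nonneg_right hcard hb))))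
    refine Em_mono (μ := ν) fun ω => ?_
    have hN1 : (0 : ℝ) < N := by exact_mod_cast hN0
    have h5 : (((∑ i ∈ I, ZC n0 (gp r i.2) r ω) / N : ℕ) : ℝ) ≤
        (∑ i ∈ I, (ZC n0 (gp r i.2) r ω : ℝ)) / N := by
      refine Nat.cast_div_le.trans ?_
      rw [Nat.cast_sum]
    have h6 : (0 : ℝ) ≤ (((∑ i ∈ I, ZC n0 (gp r i.2) r ω) / N : ℕ) : ℝ) := by positivity
    rw [← hsum ω]
    calc s * (((∑ i ∈ I, ZC n0 (gp r i.2) r ω) / N : ℕ) : ℝ)
        ≤ |s| * (((∑ i ∈ I, ZC n0 (gp r i.2) r ω) / N : ℕ) : ℝ) :=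
          mul_le_mul_of_nonneg_right (le_abs_self s) h6
      _ ≤ (θ * N) * ((∑ i ∈ I, (ZC n0 (gp r i.2) r ω : ℝ)) / N) :=
          mul_le_mul hsn h5 h6 (by positivity)
      _ = _ := by field_simp
  -- back to the expectation
  have hL : Loc W (fun ω => Real.exp (s * (((∑ i ∈ I, ZC n0 (gp r i.2) r ω) / N : ℕ) : ℝ))) := by
    intro ω ω' hw
    have : ∀ i ∈ I, ZC n0 (gp r i.2) r ω = ZC n0 (gp r i.2) r ω' := fun i hi =>
      hloc _ _ hr1 ω ω' fun v hv => hw v (Finset.mem_biUnion.2 ⟨i, hi, mem_bxx.2 hv⟩)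
    simp only
    rw [Finset.sum_congr rfl this]
  rw [Em_eq (loc_integrable hL), ENNReal.ofReal_le_ofReal_iff (Real.exp_pos _).le, hν,
    div_le_iff₀ hpos] at hfin
  exact hfin

end Vale.Agent.P167.N.H562.QM
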