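import Vale.Agent.P167.N.Kit
import Vale.Agent.P167.N.H562.GBias
import Vale.Agent.P167.H562.Q.SM4

/-! generated from Vale.Agent.P167.H562.Q.SM4 (q < 1 port) -/

set_option autoImplicit false

namespace Vale.Agent.P167.N.H562.QM

open Vale.Agent.P167.H562.QM Vale.Agent.P167.H562

open Finset Filter Topology MeasureTheory Vale.Agent.P167.FK

open Vale.Agent.P167.FKA (Loc Ind ArmDec)

open Vale.Agent.P167.H519 (IsLim loc_cont Bq_mono exists_Bq)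

open Vale.Agent.P167.H45 (gp BL BL_fin zz zz_box small_box bs_le grid_fin nm_le nm_sub_le cl BL_measR
  nm_sub_comm)

open Vale.Agent.P167.H166 (bxx mem_bxx)

open Vale.Agent.P167.H259 (f_markov)

open Vale.Agent.P167.H562.GL Vale.Agent.P167.H562.SML Vale.Agent.P167.H945

/-- **Linear statistics of the small loops, conditioned measures.** -/
theorem lin_UA {Q : ℝ} (hQ : Kit Q) {al Ca : ℝ} (hal : 0 < al) (hCa : 0 < Ca)
    (hA : ArmDec Q al Ca) {P : Measure Cfg} (hP : IsLim Q P) (hX : CrossP P) {R κ : ℝ} (T : ℝ)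
    (hR : 0 ≤ R) (hκ : 0 < κ) : ∃ C : ℝ, 0 ≤ C ∧
    ∀ ρ : ℝ, 1 ≤ ρ → ∀ (x : ℤ × ℤ) (A : Finset (ℤ × ℤ)), (∀ v ∈ A, (nm (v - x) : ℝ) ≤ R * ρ) →
    ∀ (U : Finset (ℤ × ℤ)) (N : Measure Cfg), (∀ u ∈ A, ∀ v, (nm (v - u) : ℝ) ≤ 32 * κ * ρ → v ∈ U) →
    Nu P N U → ∀ (φ : Finset Ed → ℝ) (α : ℝ), 0 < α → Bd κ ρ α φ → ∀ t : ℝ, |t| * α ≤ T →
      Em N (fun ω => t * (∑ ℓ ∈ smf A (κ * ρ) ω, φ ℓ -
        ∫ ω', ∑ ℓ ∈ smf A (κ * ρ) ω', φ ℓ ∂P)) ≤
        ENNReal.ofReal (Real.exp (C * (α * |t| + α ^ 2 * t ^ 2))) := by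
  classical
  have hPp : IsProbabilityMeasure P := hP.1
  set s1 : ℝ := 4 * (9 : ℕ) * (16 * κ ^ 2) * |T| with hs1
  have hs0 : 0 ≤ s1 := by positivity
  obtain ⟨C, hC⟩ := large_genU hX s_con s_two (1 / 8) (s1 + 1) (by norm_num)
  set M : ℝ := Real.log (max C 1) with hM
  have hM0 : 0 ≤ M := Real.log_nonneg (le_max_right _ _)
  have heM : Real.exp M = max C 1 := Real.exp_log (by positivity)
  -- mixing rate
  set x0 : ℝ := Real.sqrt ((1 / 2) ^ al) with hx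
  have hx0 : 0 < x0 := Real.sqrt_pos.2 (by positivity)
  have hxx : x0 ^ 2 = (1 / 2) ^ al := Real.sq_sqrt (by positivity)
  have hx1 : x0 < 1 := by
    have h1 : ((1 : ℝ) / 2) ^ al < 1 := Real.rpow_lt_one (by norm_num) (by norm_num) hal
    rw [← hxx] at h1
    nlinarith
  set C1 : ℝ := Real.sqrt (2 * Ca) with hC1
  have hC10 : 0 < C1 := Real.sqrt_pos.2 (by positivity)
  have hC11 : C1 ^ 2 = 2 * Ca := Real.sq_sqrt (by positivity)
  set b0 : ℝ := 16 * κ ^ 2 * (C1 * (2 + 4 * Real.exp M)) with hb0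
  have hb00 : 0 ≤ b0 := by positivity
  set Gc : ℝ := 2 * Real.exp M * Real.exp ((s1 + 1) * Real.exp M) with hGc
  have hGc0 : 0 ≤ Gc := by positivity
  have hx2 : 0 ≤ 2 / (1 - x0) := div_nonneg (by norm_num) (by linarith)
  have hbes : 0 ≤ bes R κ := by unfold bes; positivity
  refine ⟨bes R κ * (((9 : ℕ) : ℝ) * b0 * (2 / (1 - x0)) +
    12 * Gc * (9 : ℕ) ^ 2 * (16 * κ ^ 2) ^ 2), by positivity,
    fun ρ hρ x A hAx U N hU hN φ a0 ha0 hφ t ht => ?_⟩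
  have hNp : IsProbabilityMeasure N := hN.prob
  set α : ℝ := a0 * κ ^ 2 with hα
  have hα0 : 0 < α := by positivity
  have hρ0 : 0 < ρ := by linarith
  obtain ⟨W, hW⟩ := grid_superB hR hκ hρ x A hAx
  -- number of scales
  obtain ⟨J, hJ, hJ'⟩ := exists_J hκ hρ
  set Lj : ℕ → ℤ := fun j => ⌈κ * ρ / 2 ^ j⌉ with hLj
  have hL1 : ∀ j < J, 1 ≤ Lj j := fun j hj =>
    Int.one_le_ceil_iff.2 (by linarith [hJ' j hj])
  have hUs : ∀ j < J, ∀ w ∈ W j, sU (Lj j) j w ⊆ U := fun j hj w hw v hv => by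
    obtain ⟨u, hu, h⟩ := (hW j (hJ' j hj)).2.2 w hw v hv
    exact hU u hu v h
  have hXl : ∀ j < J, ∀ w ∈ W j, ∀ z ∈ sS j w,
      Loc (Bq (gp (Lj j) z) (2 * Lj j)) (YY A (κ * ρ) φ j z) := by
    intro j hj w _ z _ ω ω' hω
    refine YY_loc hJ φ j z ω ω' fun v hv => hω v ?_
    obtain ⟨h1, h2, h3, h4⟩ := hv
    have := hL1 j hj
    simp only [Bq, gp, Finset.mem_product, Finset.mem_Ico]
    simp only [hLj] at this ⊢
    refine ⟨⟨?_, ?_⟩, ?_, ?_⟩ <;> linarith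
  have hXK : ∀ j < J, ∀ w ∈ W j, ∀ z ∈ sS j w, ∀ ω, |YY A (κ * ρ) φ j z ω| ≤
      α * (1 / 4) ^ j * ((BL (gp (Lj j) z) (2 * (Lj j : ℝ)) (1 / 8 * (2 * (Lj j : ℝ))) ω).ncard :
        ℝ) := fun j hj w _ z _ ω =>
    YY_le hJ (hJ' j hj) z ω (by positivity) (fun ℓ h1 h2 => hφ.at hκ hρ j h1 h2)
  have hMK : ∀ j < J, ∀ w ∈ W j, ∀ z ∈ sS j w, ∀ ν, Nu P ν (sU (Lj j) j w) →
      Em ν (fun ω => (s1 + 1) * ((BL (gp (Lj j) z) (2 * (Lj j : ℝ))
        (1 / 8 * (2 * (Lj j : ℝ))) ω).ncard : ℝ)) ≤ ENNReal.ofReal (Real.exp M) := by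
    intro j hj w _ z hz ν hν
    have h1 : (1 : ℝ) ≤ Lj j := by exact_mod_cast hL1 j hj
    rw [heM]
    exact (hC ν _ hν (gp (Lj j) z) (2 * (Lj j : ℝ)) (by linarith)
      (fun v hv => near_sub_sU (hL1 j hj) hz hv)).trans (ENNReal.ofReal_le_ofReal (le_max_left _ _))
  set b : ℕ → ℝ := fun j => α * (1 / 4) ^ j * (C1 * x0 ^ (j / 2)) * (2 + 4 * Real.exp M) with hb
  have hbias : ∀ j < J, ∀ w ∈ W j, ∀ z ∈ sS j w, ∀ ν, Nu P ν (sU (Lj j) j w) →
      |∫ ω, YY A (κ * ρ) φ j z ω ∂ν - ∫ ω, YY A (κ * ρ) φ j z ω ∂P| ≤ b j := by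
    intro j hj w hw z hz ν hν
    have hνp := hν.prob
    have hmono : ∀ η : Measure Cfg, Em η (fun ω => (s1 + 1) * ((BL (gp (Lj j) z)
        (2 * (Lj j : ℝ)) (1 / 8 * (2 * (Lj j : ℝ))) ω).ncard : ℝ)) ≤
          ENNReal.ofReal (Real.exp M) → Em η (fun ω => ((BL (gp (Lj j) z)
        (2 * (Lj j : ℝ)) (1 / 8 * (2 * (Lj j : ℝ))) ω).ncard : ℝ)) ≤
          ENNReal.ofReal (Real.exp M) := by
      intro η h
      refine (Em_mono fun ω => ?_).trans h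
      have : (0 : ℝ) ≤ ((BL (gp (Lj j) z) (2 * (Lj j : ℝ))
        (1 / 8 * (2 * (Lj j : ℝ))) ω).ncard : ℝ) := by positivity
      nlinarith
    refine bias (hXl j hj w hw z hz) (H45.BL_measR _ _ _) (fun ω => by positivity)
      (by positivity) (Real.exp_pos M).le (by positivity) (hXK j hj w hw z hz)
      (hmono ν (hMK j hj w hw z hz ν hν)) (hmono P (hMK j hj w hw z hz P (nu_self _)))
      fun F hF0 hF1 hF => ?_
    have hNj := sN_pos j
    have hLpos := hL1 j hj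
    refine (Vale.Agent.P167.N.H562.GL.nu_mix hQ hA hP (x := gp (Lj j) z) (r := 2 * Lj j) (R := sN j * Lj j) (by omega)
      (by nlinarith) (Bq_sub_sU (hL1 j hj) hz) hν (Finset.Subset.refl _) hF0 hF1 hF).trans ?_
    have hLR : (0 : ℝ) < Lj j := by exact_mod_cast (by omega : 0 < Lj j)
    have e1 : ((2 * Lj j : ℤ) : ℝ) / ((sN j * Lj j : ℤ) : ℝ) = (1 / 2) * (1 / 2) ^ (j / 2) := by
      unfold sN
      push_cast
      rw [one_div, inv_pow]
      field_simp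
      norm_num
    rw [e1, Real.mul_rpow (by norm_num) (by positivity), mul_pow, hC11]
    have e2 : (((1 : ℝ) / 2) ^ (j / 2)) ^ al = (x0 ^ (j / 2)) ^ 2 := by
      rw [← pow_mul, mul_comm, pow_mul, hxx, ← Real.rpow_natCast, ← Real.rpow_mul (by norm_num),
        ← Real.rpow_natCast, ← Real.rpow_mul (by norm_num), mul_comm]
    rw [e2]
    have h3 : ((1 : ℝ) / 2) ^ al ≤ 1 := Real.rpow_le_one (by norm_num) (by norm_num) hal.le
    have h4 : 0 ≤ (x0 ^ (j / 2)) ^ 2 := by positivity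
    have h5 : ((1 : ℝ) / 2) ^ al * (x0 ^ (j / 2)) ^ 2 ≤ 1 * (x0 ^ (j / 2)) ^ 2 :=
      mul_le_mul_of_nonneg_right h3 h4
    nlinarith
  have hna : ∀ j < J, (sn j : ℝ) * (α * (1 / 4) ^ j) ≤ 16 * α * (1 / 2) ^ j := by
    intro j _
    have h1 := four_half j
    have e1 : ((1 : ℝ) / 4) ^ j = (1 / 2) ^ j * (1 / 2) ^ j := by rw [← mul_pow]; norm_num
    have e2 : (2 : ℝ) ^ j * (1 / 2) ^ j = 1 := by rw [← mul_pow]; norm_num
    unfold sn
    push_cast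
    rw [e1]
    have h2 : (0 : ℝ) < (1 / 2) ^ j := by positivity
    have h3 : (4 : ℝ) ^ (j / 2) * (1 / 2) ^ j ≤ 1 :=
      (mul_le_mul_of_nonneg_right h1 h2.le).trans e2.le
    calc 16 * (4 : ℝ) ^ (j / 2) * (α * ((1 / 2) ^ j * (1 / 2) ^ j))
        = 16 * α * (1 / 2) ^ j * ((4 : ℝ) ^ (j / 2) * (1 / 2) ^ j) := by ring
      _ ≤ 16 * α * (1 / 2) ^ j * 1 := mul_le_mul_of_nonneg_left h3 (by positivity)
      _ = _ := by ring
  have hmain := multiU (P := P) (N := N) J 9 (by norm_num) W code3 sS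
    (X := fun j z ω => YY A (κ * ρ) φ j z ω)
    (K := fun j z ω => ((BL (gp (Lj j) z) (2 * (Lj j : ℝ)) (1 / 8 * (2 * (Lj j : ℝ))) ω).ncard : ℝ))
    (A := fun j z => Bq (gp (Lj j) z) (2 * Lj j)) (U := fun j w => sU (Lj j) j w)
    hXl (fun j _ w _ z _ => H45.BL_measR _ _ _) (fun j _ w _ z _ ω => by positivity)
    (fun j hj w _ w' _ hne hcol z hz => by
      refine Finset.disjoint_of_subset_left ?_ (sU_disj (hL1 j hj) hne hcol)
      refine Finset.Subset.trans ?_ (Bq_sub_sU (hL1 j hj) hz)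
      have hNj := sN_pos j
      have hLpos := hL1 j hj
      have h1 : 2 * Lj j ≤ sN j * Lj j := by nlinarith
      intro v hv
      simp only [Bq, Finset.mem_product, Finset.mem_Ico] at hv ⊢
      refine ⟨⟨?_, ?_⟩, ?_, ?_⟩ <;> linarith [hv.1.1, hv.1.2, hv.2.1, hv.2.2])
    (s := s1) (M := M) (A0 := 16 * α) (B0 := a0 * b0) (β := bes R κ) (Γ := 2 / (1 - x0)) (t := t)
    (a := fun j => α * (1 / 4) ^ j) (b := b) (g := fun j => x0 ^ (j / 2)) (n := sn)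
    hs0 hM0 (fun j => by unfold sn; positivity) (fun j _ w _ => (sS_card j w).le)
    (fun j => by simp only [hb]; positivity) (fun j => by positivity) (by positivity)
    (by positivity) hbes (fun j => by positivity) hXK
    (fun j hj w hw z hz ν hν => hMK j hj w hw z hz ν (nu_trans hN hν (hUs j hj w hw)))
    (fun j hj w hw z hz ν hν => hbias j hj w hw z hz ν (nu_trans hN hν (hUs j hj w hw))) hna
    (fun j hj => by
      have h1 := hna j hj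
      simp only [hb, hb0]
      have h2 : 0 ≤ C1 * x0 ^ (j / 2) * (2 + 4 * Real.exp M) := by positivity
      have h3 := mul_le_mul_of_nonneg_right h1 h2
      rw [hα] at h3
      nlinarith)
    (fun j hj => (hW j (hJ' j hj)).1) (geom_two hx0.le hx1 J)
    (by
      rw [hs1]
      have h1 : |t| * a0 ≤ |T| := ht.trans (le_abs_self _)
      have h2 := mul_le_mul_of_nonneg_left h1 (by positivity : 0 ≤ 4 * ((9 : ℕ) : ℝ) * (16 * κ ^ 2))
      calc 4 * ((9 : ℕ) : ℝ) * (16 * α) * |t| = 4 * ((9 : ℕ) : ℝ) * (16 * κ ^ 2) * (|t| * a0) := by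
            rw [hα]; ring
        _ ≤ _ := h2)
  have hint : ∀ j < J, ∀ w ∈ W j, ∀ z ∈ sS j w,
      Integrable (fun ω => YY A (κ * ρ) φ j z ω) P :=
    fun j hj w hw z hz => loc_integrable (hXl j hj w hw z hz)
  have hdec : ∀ ω, ∑ ℓ ∈ smf A (κ * ρ) ω, φ ℓ = ∑ j ∈ Finset.range J, ∑ w ∈ W j,
      ∑ z ∈ sS j w, YY A (κ * ρ) φ j z ω := by
    intro ω
    rw [SML.decomp hJ hJ' (Ig := fun j => (W j).biUnion (sS j)) (fun j hj ω ℓ hℓ => by
      obtain ⟨w, hw, hz⟩ := (hW j hj).2.1 ω ℓ hℓ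
      exact Finset.mem_biUnion.2 ⟨w, hw, hz⟩) φ ω]
    refine Finset.sum_congr rfl fun j _ => ?_
    rw [Finset.sum_biUnion]
    intro w _ w' _ hne
    exact sS_disj hne
  have heq : (fun ω => t * (∑ ℓ ∈ smf A (κ * ρ) ω, φ ℓ -
      ∫ ω', ∑ ℓ ∈ smf A (κ * ρ) ω', φ ℓ ∂P)) =
      fun ω => t * ∑ j ∈ Finset.range J, ∑ w ∈ W j, ∑ z ∈ sS j w,
        (YY A (κ * ρ) φ j z ω - ∫ x, YY A (κ * ρ) φ j z x ∂P) :=
    funext fun ω => congrArg (t * ·) (sum_center hint hdec ω)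
  rw [heq]
  refine hmain.trans (ENNReal.ofReal_le_ofReal (Real.exp_le_exp.2 ?_))
  exact ar_end hbes (Nat.cast_nonneg _) hb00 hGc0 ha0.le hx2

end Vale.Agent.P167.N.H562.QM
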