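import Vale.Agent.P167.N.Kit
import Vale.Agent.P167.N.H562.Q.SM4
import Vale.Agent.P167.H562.Q.MQ2

/-! generated from Vale.Agent.P167.H562.Q.MQ2 (q < 1 port) -/

set_option autoImplicit false

namespace Vale.Agent.P167.N.H562.QM

open Vale.Agent.P167.H562.QM Vale.Agent.P167.H562

open Finset Filter Topology MeasureTheory Vale.Agent.P167.FK

open Vale.Agent.P167.FKA (Loc Ind ArmDec)

open Vale.Agent.P167.H519 (IsLim)

open Vale.Agent.P167.H259 (f_markov)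

open Vale.Agent.P167.H135 (Cn Cn_loc Cn_sh shC exists_ball)

open Vale.Agent.P167.H562.GL Vale.Agent.P167.H562.SML

open Vale.Agent.P167.H562.MAJ (Sm Sm_eq Sm_neg sum_G fsum_eq exists_cball Cn_nonneg nm_tri)

variable {Q : ℝ} {P ν : Measure Cfg}

/-- **Exponential moments of the sum of the masses of the small loops, conditioned measures.** -/
theorem Sm_mom_U (hQ : Kit Q) {al Ca : ℝ} (hal : 0 < al) (hCa : 0 < Ca) (hA : ArmDec Q al Ca)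
    (hP : IsLim Q P) (hX : CrossP P) (κ R Cm T : ℝ) (hκ : 0 < κ) (hR : 0 ≤ R) (hCm : 0 < Cm) :
    ∃ C : ℝ, 0 ≤ C ∧ ∀ ρ : ℝ, 1 ≤ ρ → ∀ (c : ℤ × ℤ) (f : ℤ × ℤ → ℝ),
    (∀ z, |f z| ≤ Cm / ρ ^ 2) → (∀ z, f z ≠ 0 → (nm (z - c) : ℝ) ≤ R * ρ) →
    ∀ (U : Finset (ℤ × ℤ)) (ν : Measure Cfg),
    (∀ z, f z ≠ 0 → ∀ v, (nm (v - z) : ℝ) ≤ 33 * κ * ρ → v ∈ U) → Nu P ν U → ∀ t : ℝ, |t| ≤ T →
      Em ν (fun ω => t * (Sm f (κ * ρ) ω - (∑ᶠ s, f s) * NbP P (κ * ρ))) ≤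
        ENNReal.ofReal (Real.exp C) := by
  have hQ_pos := hQ.pos
  classical
  obtain ⟨C, hC0, hC⟩ := lin_UA hQ hal hCa hA hP hX (R := R + κ) (κ := κ) (T * Cm)
    (by linarith) hκ
  refine ⟨C * (Cm * |T| + Cm ^ 2 * T ^ 2), by positivity,
    fun ρ hρ c f hf hs U ν hU hν t ht => ?_⟩
  obtain ⟨F, hF⟩ := exists_cball c (R * ρ)
  obtain ⟨A0, hA0⟩ := exists_cball c ((R + κ) * ρ)
  set A : Finset (ℤ × ℤ) := A0.filter (fun v => ∃ s, f s ≠ 0 ∧ (nm (v - s) : ℝ) < κ * ρ) with hAd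
  have hF' : ∀ s, f s ≠ 0 → s ∈ F := fun s h => (hF s).2 (hs s h)
  have hA' : ∀ s, f s ≠ 0 → ∀ v : ℤ × ℤ, (nm (v - s) : ℝ) < κ * ρ → v ∈ A := by
    intro s h v hv
    rw [hAd, mem_filter]
    refine ⟨?_, s, h, hv⟩
    rw [hA0]
    have h1 := hs s h
    have h2 := nm_tri v s c
    have h3 : (nm (v - c) : ℝ) ≤ nm (v - s) + nm (s - c) := by exact_mod_cast h2
    nlinarith
  have h1 := hC ρ hρ c A (fun v hv => (hA0 v).1 (mem_filter.1 hv).1) U ν (fun u hu v hv => by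
      obtain ⟨-, s, hs1, hs2⟩ := mem_filter.1 hu
      refine hU s hs1 v ?_
      have h3 : (nm (v - s) : ℝ) ≤ nm (v - u) + nm (u - s) := by exact_mod_cast nm_tri v u s
      linarith) hν (fun ℓ => G f ℓ) Cm hCm (bd_G hρ hCm.le hf) t
    (mul_le_mul_of_nonneg_right ht hCm.le)
  have h2 : ∀ ω, ∑ ℓ ∈ smf A (κ * ρ) ω, G f ℓ = Sm f (κ * ρ) ω := fun ω => sum_G hF' hA' ω
  simp only [h2] at h1
  rw [mean_SmP (by linarith) hP hF'] at h1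
  refine h1.trans (ENNReal.ofReal_le_ofReal (Real.exp_le_exp.2 ?_))
  have hT : |t| ≤ |T| := ht.trans (le_abs_self _)
  have h3 : t ^ 2 ≤ T ^ 2 := sq_le_sq.2 hT
  refine mul_le_mul_of_nonneg_left (add_le_add ?_ ?_) hC0
  · exact mul_le_mul_of_nonneg_left hT hCm.le
  · exact mul_le_mul_of_nonneg_left h3 (by positivity)

end Vale.Agent.P167.N.H562.QM
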