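import Vale.Agent.P167.N.Kit
import Vale.Agent.P167.H562.Q.SM1

/-!
# P167, `0 < q < 1`: the finite-volume measures are conditioned infinite-volume measures

N-version of `H562.Q.SM1`.
-/

set_option autoImplicit false

namespace Vale.Agent.P167.N.H562.QM

open Vale.Agent.P167.H562.QM Vale.Agent.P167.H562

open Finset Filter Topology MeasureTheory Vale.Agent.P167.FK Vale.Agent.P167.FKA

open Vale.Agent.P167.H519 (IsLim loc_cont Bq_mono exists_Bq)

open Vale.Agent.P167.H259 (f_markov f_fkg f_comp)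

open Vale.Agent.P167.H45 (LV LV_fin LV_ncard)

open Vale.Agent.P167.H562.GL

variable {Q : ℝ} {P ν ν' : Measure Cfg} {U U' D : Finset (ℤ × ℤ)} {η : Cfg}

/-- The weights of the configurations are bounded from below. -/
theorem ex_pos (hQ : Kit Q) (B : Finset (ℤ × ℤ)) : ∃ c : ℝ, 0 < c ∧ ∀ (ζ ω₀ : Cfg) (F : Cfg → ℝ),
    (∀ ω, 0 ≤ F ω) → (∀ S ⊆ B, (∀ v ∈ B, decide (v ∈ S) = ω₀ v) → 1 ≤ F (cf B ζ S)) →
    c ≤ Ex Q B ζ F := by
  have hQ0 := hQ.pos
  have hQ1 := hQ.le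
  classical
  refine ⟨Q ^ (4 * B.card) / 2 ^ B.card, by positivity, fun ζ ω₀ F hF0 hF => ?_⟩
  set S₀ : Finset (ℤ × ℤ) := B.filter (fun v => ω₀ v = true) with hS₀
  have hS : S₀ ⊆ B := filter_subset _ _
  have h1 : 1 ≤ F (cf B ζ S₀) := hF S₀ hS fun v hv => by
    by_cases h : ω₀ v = true
    · simp [hS₀, hv, h]
    · simp only [Bool.not_eq_true] at h
      simp [hS₀, h]
  have hZ : Zq Q B ζ ≤ 2 ^ B.card := by
    unfold Zq
    calc ∑ S ∈ B.powerset, Q ^ LD B (cf B ζ S) ≤ ∑ _S ∈ B.powerset, (1 : ℝ) :=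
          Finset.sum_le_sum fun S _ => pow_le_one₀ hQ0.le hQ1
      _ = _ := by rw [sum_const, card_powerset, nsmul_eq_mul]; push_cast; ring
  have hZ0 := Zq_pos hQ0 B ζ
  unfold Ex
  rw [div_le_div_iff₀ (by positivity) hZ0]
  have h2 : Q ^ (4 * B.card) ≤ ∑ S ∈ B.powerset, Q ^ LD B (cf B ζ S) * F (cf B ζ S) := by
    refine le_trans ?_ (Finset.single_le_sum (f := fun S => Q ^ LD B (cf B ζ S) * F (cf B ζ S))
      (fun S _ => mul_nonneg (by positivity) (hF0 _)) (mem_powerset.2 hS))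
    have h3 : Q ^ (4 * B.card) ≤ Q ^ LD B (cf B ζ S₀) :=
      pow_le_pow_of_le_one hQ0.le hQ1 (LV_ncard s_two B (cf B ζ S₀))
    have h4 : 0 < Q ^ LD B (cf B ζ S₀) := by positivity
    nlinarith
  have h4 : 0 < Q ^ (4 * B.card) := by positivity
  have h5 : (0 : ℝ) < 2 ^ B.card := by positivity
  calc Q ^ (4 * B.card) * Zq Q B ζ ≤ Q ^ (4 * B.card) * 2 ^ B.card :=
        mul_le_mul_of_nonneg_left hZ h4.le
    _ ≤ _ := mul_le_mul_of_nonneg_right h2 h5.le

open Classical in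
/-- **The finite-volume measures are conditioned infinite-volume measures.** -/
theorem exists_nuEx (hQ : Kit Q) (hP : IsLim Q P) (hη : Good η) (D A : Finset (ℤ × ℤ)) :
    ∃ ν, Nu P ν D ∧ ∀ F : Cfg → ℝ, Loc A F → ∫ ω, F ω ∂ν = Ex Q D η F := by
  have hQ_pos := hQ.pos
  have hQ0 : 0 < Q := by linarith
  have hPp : IsProbabilityMeasure P := hP.1
  obtain ⟨B, hDB, hAB, hB⟩ := exists_range hη D A
  set G : Cfg → ℝ := fun ω => if ∀ v ∈ B, v ∉ D → ω v = η v then 1 else 0 with hG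
  have hG0 : ∀ ω, 0 ≤ G ω := fun ω => by simp only [hG]; split_ifs <;> norm_num
  have hGL : Loc B G := fun ω ω' h => by
    simp only [hG]
    have : (∀ v ∈ B, v ∉ D → ω v = η v) ↔ (∀ v ∈ B, v ∉ D → ω' v = η v) :=
      forall₃_congr fun v hv _ => by rw [h v hv]
    simp only [this]
  have hGI : Ind D G := fun ω ω' h => by
    simp only [hG]
    have : (∀ v ∈ B, v ∉ D → ω v = η v) ↔ (∀ v ∈ B, v ∉ D → ω' v = η v) :=
      forall₃_congr fun v _ hv => by rw [h v hv]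
    simp only [this]
  -- positivity
  obtain ⟨c, hc, hcE⟩ := ex_pos hQ B
  have hpos : 0 < ∫ ω, G ω ∂P := by
    obtain ⟨R, hR⟩ := hP.2 B G hGL (c / 2) (by positivity)
    have h1 := hR (Bq 0 R ∪ B) eta0 subset_union_left f_good.2.1
    have h2 : c ≤ Ex Q (Bq 0 R ∪ B) eta0 G := by
      rw [f_markov Q B _ eta0 G hQ0 subset_union_right f_good.2.1,
        ← Ex_const (Q := Q) (D := Bq 0 R ∪ B) (η := eta0) hQ0 c]
      refine Ex_mono hQ0 fun S _ => hcE _ η G hG0 fun T hT h => ?_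
      simp only [hG]
      rw [if_pos]
      intro v hv _
      simp [cf, hv, h v hv]
    rw [abs_le] at h1
    linarith [h1.1, h1.2]
  obtain ⟨ν, hν, h1⟩ := exists_nu hG0 hGL hGI hpos
  refine ⟨ν, hν, fun F hF => ?_⟩
  rw [h1 F A hF, div_eq_iff hpos.ne']
  -- conditional expectation
  have hcond : ∀ ω : Cfg, G ω * Ex Q D ω F = G ω * Ex Q D η F := by
    intro ω
    by_cases h : ∀ v ∈ B, v ∉ D → ω v = η v
    · congr 1
      unfold Ex Zq
      have e1 : ∀ S ∈ D.powerset, Q ^ LD D (cf D ω S) = Q ^ LD D (cf D η S) := fun S hS => by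
        rw [hB ω h S (mem_powerset.1 hS)]
      have e2 : ∀ S ∈ D.powerset, F (cf D ω S) = F (cf D η S) := fun S _ => by
        refine hF _ _ fun v hv => ?_
        by_cases hvD : v ∈ D
        · simp [cf, hvD]
        · rw [cf_out hvD, cf_out hvD, h v (hAB hv) hvD]
      rw [sum_congr rfl e1, sum_congr rfl fun S hS => by rw [e1 S hS, e2 S hS]]
    · simp only [hG, if_neg h, zero_mul]
  have hEx : ∀ D' : Finset (ℤ × ℤ), D ⊆ D' →
      Ex Q D' eta0 (fun ω => G ω * F ω) = Ex Q D η F * Ex Q D' eta0 G := by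
    intro D' hD'
    rw [markov f_markov hQ0 hD' f_good.2.1 hGI, ← Ex_mul_left]
    refine Ex_congr fun S _ => ?_
    rw [hcond]
    ring
  -- limits
  refine eq_of_forall_dist_le fun ε hε => ?_
  obtain ⟨R1, hR1⟩ := hP.2 (B ∪ A) (fun ω => G ω * F ω) (Loc.mulU hGL hF) (ε / 2) (by positivity)
  obtain ⟨R2, hR2⟩ := hP.2 B G hGL (ε / 2 / (|Ex Q D η F| + 1)) (by positivity)
  set D' := Bq 0 (max R1 R2) ∪ D with hD'
  have k1 := hR1 D' eta0 ((Bq_mono (le_max_left _ _)).trans subset_union_left) f_good.2.1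
  have k2 := hR2 D' eta0 ((Bq_mono (le_max_right _ _)).trans subset_union_left) f_good.2.1
  rw [hEx D' subset_union_right] at k1
  rw [Real.dist_eq]
  have k3 : |Ex Q D η F * Ex Q D' eta0 G - Ex Q D η F * ∫ ω, G ω ∂P| ≤ ε / 2 := by
    rw [← mul_sub, abs_mul]
    calc |Ex Q D η F| * |Ex Q D' eta0 G - ∫ ω, G ω ∂P|
        ≤ |Ex Q D η F| * (ε / 2 / (|Ex Q D η F| + 1)) :=
          mul_le_mul_of_nonneg_left k2 (abs_nonneg _)
      _ ≤ ε / 2 := by
          rw [mul_div_assoc', div_le_iff₀ (by positivity)]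
          nlinarith [abs_nonneg (Ex Q D η F)]
  rw [abs_le] at k1 k3 ⊢
  constructor <;> linarith [k1.1, k1.2, k3.1, k3.2]

end Vale.Agent.P167.N.H562.QM
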