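import Vale.Agent.P167.N.Kit
import Vale.Agent.P167.N.FKA.All
import Vale.Agent.P167.N.H562.Q.CB3
import Vale.Agent.P167.N.H562.Q.MQ2
import Vale.Agent.P167.N.H562.Q.SM1
import Vale.Agent.P167.H562.Q.MQ3

/-! generated from Vale.Agent.P167.H562.Q.MQ3 (q < 1 port) -/

set_option autoImplicit false

namespace Vale.Agent.P167.N.H562.QM

open Vale.Agent.P167.H562.QM Vale.Agent.P167.H562

open Finset Filter Topology MeasureTheory Vale.Agent.P167.FK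

open Vale.Agent.P167.FKA (Loc Ind ArmDec)

open Vale.Agent.P167.H519 (IsLim)

open Vale.Agent.P167.H259 (f_markov)

open Vale.Agent.P167.H166 (bxx mem_bxx)

open Vale.Agent.P167.H562 (Em Em_mono Em_eq)

open Vale.Agent.P167.H562.GL Vale.Agent.P167.H562.SML

open Vale.Agent.P167.H562.MAJ (Sm Sm_eq exists_cball)

variable {Q : ℝ} {P : Measure Cfg} {D U : Finset (ℤ × ℤ)} {η : Cfg}

/-- From the conditioned measures to the finite-volume expectations with a factor. -/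
theorem ex_of_nu (hQ : Kit Q) (hP : IsLim Q P) (hη : Good η) (hUD : U ⊆ D) {A : Finset (ℤ × ℤ)}
    {F G : Cfg → ℝ} {C : ℝ} (hF : Loc A F) (h : ∀ ν, Nu P ν U → ∫ ω, F ω ∂ν ≤ C)
    (hG0 : ∀ ω, 0 ≤ G ω) (hG : Ind U G) :
    Ex Q D η (fun ω => G ω * F ω) ≤ C * Ex Q D η G := by
  have hQ_pos := hQ.pos
  classical
  have hQ0 : 0 < Q := by linarith
  have hPp : IsProbabilityMeasure P := hP.1
  rcases (FKA.Ex_nonneg (D := D) (η := η) hQ0 fun S _ => hG0 _).eq_or_lt with h0 | hpos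
  · rw [ex_zero_mul hQ0 hG0 h0.symm F, ← h0, mul_zero]
  -- a local version of the factor
  set π : Cfg → Cfg := fun ω v => if v ∈ D then ω v else η v with hπ
  set G' : Cfg → ℝ := fun ω => G (π ω) with hG'
  have hG'0 : ∀ ω, 0 ≤ G' ω := fun ω => hG0 _
  have hG'L : Loc D G' := fun ω ω' hw => by
    show G _ = G _
    congr 1
    funext v
    simp only [hπ]
    split_ifs with hv
    · exact hw v hv
    · rfl
  have hG'I : Ind U G' := fun ω ω' hw => hG _ _ fun v hv => by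
    simp only [hπ]
    split_ifs with hv'
    · exact hw v hv
    · rfl
  have hGcf : ∀ S, G' (cf D η S) = G (cf D η S) := fun S => by
    show G _ = G _
    congr 1
    funext v
    simp only [hπ]
    split_ifs with hv
    · rfl
    · rw [FKA.cf_out hv]
  obtain ⟨ν0, hν0, h1⟩ := exists_nuEx hQ hP hη D (D ∪ A)
  have hν0p := hν0.prob
  have e1 : ∫ ω, G' ω ∂ν0 = Ex Q D η G := by
    rw [h1 G' (GL.Loc.mono subset_union_left hG'L)]
    exact FKA.Ex_congr fun S _ => hGcf S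
  obtain ⟨ν, hν, h2⟩ := exists_nu (P := ν0) hG'0 hG'L hG'I (by rw [e1]; exact hpos)
  have h3 := h ν (nu_trans hν0 hν hUD)
  rw [h2 F A hF, e1, div_le_iff₀ hpos] at h3
  rw [h1 _ (GL.Loc.mulU hG'L hF)] at h3
  refine le_trans (le_of_eq ?_) h3
  exact FKA.Ex_congr fun S _ => by rw [hGcf S]

/-- **Moments of the majorant.** -/
theorem YQ_mom (hQ : Kit Q) (hR0 : RSW Q) (hP : IsLim Q P) (κ R Cm s M T : ℝ) (m : ℕ) (hκ : 0 < κ)
    (hR : 0 ≤ R) (hCm : 0 < Cm) (hs : 0 ≤ s) (hM : 1 ≤ M) (_hT : 0 ≤ T) :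
    ∃ ε C ρ0 : ℝ, 0 < ε ∧ 0 < C ∧ 1 ≤ ρ0 ∧ ∀ ρ : ℝ, ρ0 ≤ ρ → ∀ (c : ℤ × ℤ) (A : Finset (ℤ × ℤ)),
      (∀ v ∈ A, (nm (v - c) : ℝ) ≤ R * ρ) → ∀ (x : Fin m → ℤ × ℤ), ∃ N : Cfg → ℕ,
      (∀ ω ω' : Cfg, (∀ v, Nr A (κ * ρ) v →
        (∀ i, ε * ρ < (nm (v - x i) : ℝ)) → ω v = ω' v) → N ω = N ω') ∧
      (∀ ω, MajA A (κ * ρ) ω (N ω)) ∧
      ∀ (D : Finset (ℤ × ℤ)) (η : Cfg), Good η →
        (∀ (y : ℤ × ℤ) (a : ℤ), 1 ≤ a → (∀ v ∈ bxx y a, Nr A (κ * ρ) v) → OneC y a D η) →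
        ∀ f : ℤ × ℤ → ℝ, (∀ z, |f z| ≤ Cm / ρ ^ 2) → (∀ z, f z ≠ 0 → (nm (z - c) : ℝ) ≤ R * ρ) →
        (∀ z, f z ≠ 0 → ∀ v : ℤ × ℤ, (nm (v - z) : ℝ) ≤ 33 * κ * ρ → v ∈ D) →
        ∀ G : Cfg → ℝ, (∀ ω, 0 ≤ G ω) →
        (∀ ω ω' : Cfg, (∀ v, ¬ (v ∈ D ∧ (Nr A (κ * ρ) v ∨
          ∃ z, f z ≠ 0 ∧ (nm (v - z) : ℝ) ≤ 33 * κ * ρ)) → ω v = ω' v) → G ω = G ω') →
        ∀ τ t : ℝ, 0 ≤ τ → τ ≤ T → 0 ≤ t → t ≤ s →
        Ex Q D η (fun ω => G ω * YQ M τ N f (κ * ρ) ω ^ t) ≤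
          C * Real.exp (-(t * τ * (∑ᶠ z, f z) * NbP P (κ * ρ))) * Ex Q D η G := by
  have hQ_pos := hQ.pos
  classical
  have hQ0 : 0 < Q := by linarith
  have hPp : IsProbabilityMeasure P := hP.1
  obtain ⟨al, Ca, hal, hCa, hdec, -⟩ := FKA.arm_fk hQ hR0
  have hX : CrossP P := crossP hP (FKA.cross_fk hQ f_markov f_good f_dual hR0)
  have hlM : 0 ≤ Real.log M := Real.log_nonneg hM
  obtain ⟨ε, C1, ρ1, hε, hC1, hρ1, h1⟩ := macro_B hQ hR0 κ R (2 * s * Real.log M) m hκ hR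
  obtain ⟨C2, hC2, h2⟩ := Sm_mom_U hQ hal hCa hdec hP hX κ R Cm (2 * (s * T)) hκ hR hCm
  refine ⟨ε, Real.sqrt (max C1 1) * Real.exp (C2 / 2), max ρ1 1, hε, by positivity,
    le_max_right _ _, fun ρ hρ c A hA x => ?_⟩
  have hρ' : 1 ≤ ρ := (le_max_right _ _).trans hρ
  obtain ⟨N, hN1, hN2, hN3⟩ := h1 ρ ((le_max_left _ _).trans hρ) c A hA x
  refine ⟨N, hN1, hN2, fun D η hη hone f hf hfs hfD G hG0 hG τ t hτ0 hτ2 ht0 hts => ?_⟩
  set E : ℝ := (∑ᶠ z, f z) * NbP P (κ * ρ) with hE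
  set g : ℝ := Ex Q D η G with hg
  have hg0 : 0 ≤ g := FKA.Ex_nonneg hQ0 fun S _ => hG0 _
  -- the two factors
  have hlog : ∀ ω, YQ M τ N f (κ * ρ) ω ^ t = Real.exp (t * Real.log M * (N ω : ℝ)) *
      (Real.exp (-(t * τ) * (Sm f (κ * ρ) ω - E)) * Real.exp (-(t * τ * E))) := by
    intro ω
    rw [← Real.exp_log (YQ_pos (by linarith : 0 < M) τ N f (κ * ρ) ω), ← Real.exp_mul,
      ← Real.exp_add, ← Real.exp_add]
    congr 1
    unfold YQ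
    rw [Real.log_mul (by positivity) (Real.exp_pos _).ne', Real.log_exp, Real.log_pow]
    ring
  have hA1 : Ex Q D η (fun ω => G ω * Real.exp (t * Real.log M * (N ω : ℝ)) ^ 2) ≤
      Real.sqrt (max C1 1) ^ 2 * g := by
    rw [Real.sq_sqrt (by positivity)]
    have h3 := hN3 D η hη hone G hG0 fun ω ω' hw => hG ω ω' fun v hv =>
      hw v fun hv' => hv ⟨hv'.1, Or.inl hv'.2⟩
    refine le_trans (FKA.Ex_mono hQ0 fun S _ => ?_)
      (h3.trans (mul_le_mul_of_nonneg_right (le_max_left _ _) hg0))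
    refine mul_le_mul_of_nonneg_left ?_ (hG0 _)
    rw [← Real.exp_nat_mul]
    refine Real.exp_le_exp.2 ?_
    have h4 : (0 : ℝ) ≤ N (cf D η S) := Nat.cast_nonneg _
    have h5 : t * (Real.log M * (N (cf D η S) : ℝ)) ≤ s * (Real.log M * (N (cf D η S) : ℝ)) :=
      mul_le_mul_of_nonneg_right hts (by positivity)
    push_cast
    linarith
  have hB1 : Ex Q D η (fun ω => G ω * (Real.exp (-(t * τ) * (Sm f (κ * ρ) ω - E))) ^ 2) ≤
      Real.exp (C2 / 2) ^ 2 * g := by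
    obtain ⟨F, hF⟩ := exists_cball c (R * ρ)
    have hF' : ∀ z, f z ≠ 0 → z ∈ F := fun z h => (hF z).2 (hfs z h)
    obtain ⟨A0, hA0⟩ := Sm_Loc hF' (κ * ρ)
    have hL : Loc A0 (fun ω => (Real.exp (-(t * τ) * (Sm f (κ * ρ) ω - E))) ^ 2) := by
      intro ω ω' hw
      simp only
      rw [hA0 ω ω' hw]
    set U : Finset (ℤ × ℤ) := D.filter (fun v => ∃ z, f z ≠ 0 ∧ (nm (v - z) : ℝ) ≤ 33 * κ * ρ)
      with hU
    refine ex_of_nu hQ hP hη (filter_subset _ _) (U := U) hL (fun ν hν => ?_) hG0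
      (fun ω ω' hw => hG ω ω' fun v hv => hw v fun hv' => hv
        ⟨(mem_filter.1 hv').1, Or.inr (mem_filter.1 hv').2⟩)
    have hνp := hν.prob
    have ht2 : |(-(2 * t * τ))| ≤ 2 * (s * T) := by
      rw [abs_neg, abs_of_nonneg (by positivity)]
      have := mul_le_mul hts hτ2 hτ0 hs
      linarith
    have h3 := h2 ρ hρ' c f hf hfs U ν (fun z hz v hv => mem_filter.2 ⟨hfD z hz v hv, z, hz, hv⟩)
      hν (-(2 * t * τ)) ht2
    have hL2 : Loc A0 (fun ω => Real.exp (-(2 * t * τ) * (Sm f (κ * ρ) ω - E))) := by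
      intro ω ω' hw
      simp only
      rw [hA0 ω ω' hw]
    rw [Em_eq (loc_integrable hL2), ENNReal.ofReal_le_ofReal_iff (Real.exp_pos _).le] at h3
    have e : ∀ ω, (Real.exp (-(t * τ) * (Sm f (κ * ρ) ω - E))) ^ 2 =
        Real.exp (-(2 * t * τ) * (Sm f (κ * ρ) ω - E)) := fun ω => by
      rw [← Real.exp_nat_mul]
      congr 1
      push_cast
      ring
    simp only [e]
    refine h3.trans (le_of_eq ?_)
    rw [← Real.exp_nat_mul]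
    congr 1
    push_cast
    ring
  have h3 := ex_cs hQ0 hG0 (Real.sqrt_nonneg _) (Real.exp_pos _).le hg0 hA1 hB1
  have e : Ex Q D η (fun ω => G ω * YQ M τ N f (κ * ρ) ω ^ t) =
      Real.exp (-(t * τ * E)) * Ex Q D η (fun ω => G ω * (Real.exp (t * Real.log M * (N ω : ℝ)) *
        Real.exp (-(t * τ) * (Sm f (κ * ρ) ω - E)))) := by
    rw [← FKA.Ex_mul_left]
    refine FKA.Ex_congr fun S _ => ?_
    rw [hlog]
    ring
  rw [e]
  have h4 := mul_le_mul_of_nonneg_left h3 (Real.exp_pos (-(t * τ * E))).le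
  refine h4.trans (le_of_eq ?_)
  rw [hE]
  ring_nf

end Vale.Agent.P167.N.H562.QM
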