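import Vale.Agent.P167.N.Kit
import Vale.Agent.P167.H562.Q.MQ1

/-!
# P167, `0 < q < 1`, block Q-MAJ: majorants of the products over the pieces of a domain

N-version of `H562.Q.MQ1`. The angle `a` is in `(π / 3, π / 2)`; the masses of the small loops must be at
most `π / 2 - a` in absolute value (`hsm`), so that their weights `cos (a + t) / cos a` are nonnegative.
-/

set_option autoImplicit false

namespace Vale.Agent.P167.N.H562.QM

open Vale.Agent.P167.H562.QM Vale.Agent.P167.H562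

open Finset Vale.Agent.P167.BR Vale.Agent.P167.H562.SML Vale.Agent.P167.H45 Relation

open Vale.Agent.P167.H562.MAJ (loop_mem_pcs potD_W mass_loop bbox near_of_ins near_ins
  exists_ins_of_G nm_tri nm_comm' near_site one_le_prodR bigs nb1 G_sum mass_sum)

open Vale.Agent.P167.H167 (tot isSeg)

open Vale.Agent.P167.H562.GQ (wt0 abs_wt_le one_le_inv_cos)

variable {ω : Cfg} {D : Finset (ℤ × ℤ)} {p : ℤ × ℤ} {A : Finset Ed}

theorem wt_nonneg' {a t : ℝ} (ha0 : 0 < a) (ha1 : Ang a) (ht : |t| ≤ Real.pi / 2 - a) :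
    0 ≤ wt a t := by
  have ha1_lt := ha1.lt
  unfold wt
  have h := Real.pi_pos
  have h2 := abs_le.1 ht
  refine div_nonneg (Real.cos_nonneg_of_mem_Icc ⟨by linarith, by linarith⟩)
    (Real.cos_nonneg_of_mem_Icc ⟨by linarith, by linarith⟩)

theorem tan_nn {a : ℝ} (ha0 : 0 < a) (ha1 : Ang a) : 0 ≤ Real.tan a := by
  have ha1_lt := ha1.lt
  exact Real.tan_nonneg_of_nonneg_of_le_pi_div_two ha0.le ha1_lt.le

/-- `tan a * (π / 2 - a) ≤ 1`. -/
theorem tan_mul_le {a : ℝ} (ha0 : 0 < a) (ha1 : a < Real.pi / 2) :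
    Real.tan a * (Real.pi / 2 - a) ≤ 1 := by
  have h1 : Real.pi / 2 - a ≤ Real.tan (Real.pi / 2 - a) :=
    Real.le_tan (by linarith) (by linarith)
  have h2 : 0 < Real.tan a := Real.tan_pos_of_pos_of_lt_pi_div_two ha0 ha1
  have h3 := mul_le_mul_of_nonneg_left h1 h2.le
  rw [Real.tan_pi_div_two_sub, mul_inv_cancel₀ h2.ne'] at h3
  exact h3

section

variable {ι : Type*} {J : Finset ι} {Z Zb : ι → Finset (ℤ × ℤ)} {f : ι → ℤ × ℤ → ℝ} {d : ι → ℝ}
  {Q : Finset Ed → Prop}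

/-- Weights of the pieces: the loops have the weight `cos (a + t) / cos a`, all weights are bounded. -/
structure WtQ (a M : ℝ) (D : Finset (ℤ × ℤ)) (w : Finset Ed → ℝ → ℝ) : Prop where
  a0 : 0 < a
  a1 : Ang a
  M1 : 1 ≤ M
  loop : ∀ A t, IsLp D A → w A t = wt a t
  bd : ∀ A t, |w A t| ≤ M

variable {a M : ℝ} {w : Finset Ed → ℝ → ℝ}

open Classical in
/-- The majorant of the weight of one piece. -/
theorem BumpsQ.wp_le (hB : BumpsQ J D p Z Zb f d Q) (hw : WtQ a M D w)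
    (hsm : ∀ j ∈ J, ∀ (ω : Cfg) (ℓ : Finset Ed), IsLoop ω ℓ → Small (d j) ℓ →
      |G (f j) ℓ| ≤ Real.pi / 2 - a) (hA : A ∈ pcs ω D)
    (hQ : Q A) :
    |w A (mass D p (fun z => ∑ j ∈ J, f j z) A)| ≤ (∏ j ∈ J, fac a M D (Zb j) (f j) (d j) A) *
      if Far J D Zb d A then |w A (mass D p (fun z => ∑ j ∈ J, f j z) A)| else 1 := by
  have ha2 : a < Real.pi / 2 := hw.a1.lt
  have hge : ∀ j ∈ J, (IsLp D A → Small (d j) A → G (f j) A = 0) →
      1 ≤ fac a M D (Zb j) (f j) (d j) A := fun j _ h => fac_one hw.M1 h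
  by_cases hfar : Far J D Zb d A
  · rw [if_pos hfar]
    refine le_mul_of_one_le_left (abs_nonneg _) (one_le_prodR fun j hj => ?_)
    exact hge j hj fun h => absurd h hfar.1
  rw [if_neg hfar, mul_one]
  by_cases hex : ∃ i ∈ J, IsLp D A ∧ Small (d i) A ∧ G (f i) A ≠ 0
  · obtain ⟨i, hi, hl, hs, hG⟩ := hex
    have hL := BR.IsLp.isLoop hA hl
    have h1 : mass D p (fun z => ∑ j ∈ J, f j z) A = G (f i) A := by
      rw [hB.mass_lp hA hQ hl]
      rw [sum_eq_single i]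
      · intro j hj hji
        exact hB.other hi hj (Ne.symm hji) hL hs hG
      · intro h; exact absurd hi h
    rw [h1]
    have h2 := hsm i hi ω A hL hs
    have ha0 := hw.a0
    have h3 : |w A (G (f i) A)| ≤ Real.exp (-(Real.tan a * G (f i) A)) := by
      rw [hw.loop A _ hl, abs_of_nonneg (wt_nonneg' hw.a0 hw.a1 h2)]
      exact wt_le_exp hw.a0 ha2 (h2.trans (by linarith [Real.pi_gt_three]))
    refine h3.trans ?_
    rw [← mul_prod_erase J _ hi]
    have h4 : Real.exp (-(Real.tan a * G (f i) A)) ≤ fac a M D (Zb i) (f i) (d i) A := by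
      unfold fac
      rw [if_pos (⟨hl, hs⟩ : IsLp D A ∧ Small (d i) A)]
      rw [if_neg (fun h => h.2 hs), one_mul]
    have h5 : 1 ≤ ∏ j ∈ J.erase i, fac a M D (Zb j) (f j) (d j) A := by
      refine one_le_prodR ?_
      intro j hj
      rw [mem_erase] at hj
      refine hge j hj.2 fun _ _ => hB.other hi hj.2 (Ne.symm hj.1) hL hs hG
    calc Real.exp (-(Real.tan a * G (f i) A)) ≤ fac a M D (Zb i) (f i) (d i) A := h4
      _ ≤ fac a M D (Zb i) (f i) (d i) A * ∏ j ∈ J.erase i, fac a M D (Zb j) (f j) (d j) A :=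
        le_mul_of_one_le_right ((Real.exp_pos _).le.trans h4) h5
  · push Not at hex
    have hge' : ∀ j ∈ J, 1 ≤ fac a M D (Zb j) (f j) (d j) A := fun j hj => hge j hj fun h1 h2 =>
      hex j hj h1 h2
    by_cases hbig : ∃ i ∈ J, Vz (Zb i) A ∧ ¬ Small (d i) A
    · obtain ⟨i, hi, h1, h2⟩ := hbig
      refine (hw.bd _ _).trans ?_
      have hf : fac a M D (Zb i) (f i) (d i) A = M := by
        unfold fac
        rw [if_pos ⟨h1, h2⟩, if_neg (fun h => h2 h.2), mul_zero, neg_zero, Real.exp_zero, mul_one]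
      rw [← mul_prod_erase J _ hi, hf]
      have h5 : 1 ≤ ∏ j ∈ J.erase i, fac a M D (Zb j) (f j) (d j) A := by
        refine one_le_prodR ?_
        intro j hj
        exact hge' j (mem_of_mem_erase hj)
      have := hw.M1
      nlinarith
    · have h5 : 1 ≤ ∏ j ∈ J, fac a M D (Zb j) (f j) (d j) A := one_le_prodR hge'
      refine le_trans ?_ h5
      by_cases hl : IsLp D A
      · -- a loop
        push Not at hbig
        have hz : ∀ j ∈ J, G (f j) A = 0 := by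
          intro j hj
          by_contra hG
          have h1 := hB.loop j hj ω A hA hQ hl hG
          exact hG (hex j hj hl (hbig j hj h1))
        rw [hB.mass_lp hA hQ hl, sum_eq_zero hz, hw.loop A _ hl, wt0 hw.a0 ha2]
        simp
      · exact absurd ⟨hl, fun j hj h => hbig ⟨j, hj, h⟩⟩ hfar

theorem BumpsQ.fac_ge (hB : BumpsQ J D p Z Zb f d Q) (ha0 : 0 < a) (ha1 : Ang a)
    (hsm : ∀ j ∈ J, ∀ (ω : Cfg) (ℓ : Finset Ed), IsLoop ω ℓ → Small (d j) ℓ →
      |G (f j) ℓ| ≤ Real.pi / 2 - a) (hM : 1 ≤ M) (hA : A ∈ pcs ω D) :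
    1 / 3 ≤ ∏ j ∈ J, fac a M D (Zb j) (f j) (d j) A := by
  have ha1_lt := ha1.lt
  classical
  have hge : ∀ j ∈ J, (IsLp D A → Small (d j) A → G (f j) A = 0) →
      1 ≤ fac a M D (Zb j) (f j) (d j) A := fun j _ h => fac_one hM h
  by_cases hex : ∃ i ∈ J, IsLp D A ∧ Small (d i) A ∧ G (f i) A ≠ 0
  · obtain ⟨i, hi, hl, hs, hG⟩ := hex
    have hL := BR.IsLp.isLoop hA hl
    rw [← mul_prod_erase J _ hi]
    have h4 : 1 / 3 ≤ fac a M D (Zb i) (f i) (d i) A := by
      unfold fac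
      rw [if_pos (⟨hl, hs⟩ : IsLp D A ∧ Small (d i) A)]
      rw [if_neg (fun h => h.2 hs), one_mul]
      have h2 := (abs_le.1 (hsm i hi ω A hL hs)).2
      have t0 := tan_nn ha0 ha1
      have t1 := tan_mul_le ha0 ha1_lt
      have h5 : -1 ≤ -(Real.tan a * G (f i) A) := by
        have := mul_le_mul_of_nonneg_left h2 t0
        linarith
      refine le_trans ?_ (Real.exp_le_exp.2 h5)
      rw [Real.exp_neg, one_div]
      exact inv_anti₀ (Real.exp_pos _) (by linarith [Real.exp_one_lt_d9])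
    have h5 : 1 ≤ ∏ j ∈ J.erase i, fac a M D (Zb j) (f j) (d j) A := by
      refine one_le_prodR ?_
      intro j hj
      rw [mem_erase] at hj
      refine hge j hj.2 fun _ _ => hB.other hi hj.2 (Ne.symm hj.1) hL hs hG
    exact h4.trans (le_mul_of_one_le_right ((by norm_num : (0 : ℝ) ≤ 1 / 3).trans h4) h5)
  · push Not at hex
    have h5 : 1 ≤ ∏ j ∈ J, fac a M D (Zb j) (f j) (d j) A :=
      one_le_prodR fun j hj => hge j hj fun h1 h2 => hex j hj h1 h2
    linarith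

open Classical in
/-- **The deterministic majorant.** -/
theorem BumpsQ.maj_det (hB : BumpsQ J D p Z Zb f d Q) (hw : WtQ a M D w)
    (hsm : ∀ j ∈ J, ∀ (ω : Cfg) (ℓ : Finset Ed), IsLoop ω ℓ → Small (d j) ℓ →
      |G (f j) ℓ| ≤ Real.pi / 2 - a)
    {T T' : Finset (Finset Ed)} (hTT : T ⊆ T') (hT : T' ⊆ pcs ω D) (hQ : ∀ A ∈ T, Q A)
    (hT' : ∀ A ∈ pcs ω D, IsLp D A → ∀ j ∈ J, Small (d j) A → G (f j) A ≠ 0 → A ∈ T') :
    ∏ A ∈ T, |w A (mass D p (fun z => ∑ j ∈ J, f j z) A)| ≤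
      (3 ^ (T' \ T).card * ∏ j ∈ J, M ^ (bigs D (Zb j) (d j) ω).card *
        Real.exp (-(Real.tan a * ∑ ℓ ∈ smf (nb1 Z d j) (d j) ω, G (f j) ℓ))) *
      ∏ A ∈ T.filter (Far J D Zb d), |w A (mass D p (fun z => ∑ j ∈ J, f j z) A)| := by
  have hM := hw.M1
  refine (prod_le_prod (fun A _ => abs_nonneg _)
    fun A hA => BumpsQ.wp_le hB hw hsm (hT (hTT hA)) (hQ A hA)).trans ?_
  rw [prod_mul_distrib, ← prod_filter]
  refine mul_le_mul_of_nonneg_right ?_ (prod_nonneg fun _ _ => abs_nonneg _)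
  refine le_trans ?_ (mul_le_mul_of_nonneg_left (hB.fac_prod hM hT hT') (by positivity))
  rw [← prod_sdiff hTT, ← mul_assoc]
  have h0 : 0 ≤ ∏ A ∈ T, ∏ j ∈ J, fac a M D (Zb j) (f j) (d j) A :=
    prod_nonneg fun _ _ => prod_nonneg fun j _ => (fac_pos hM _ _ _ _ _).le
  refine le_mul_of_one_le_left h0 ?_
  rw [← prod_const, ← prod_mul_distrib]
  refine one_le_prodR fun A hA => ?_
  have := BumpsQ.fac_ge hB (a := a) hw.a0 hw.a1 hsm hM (hT (mem_sdiff.1 hA).1)
  linarith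

end

end Vale.Agent.P167.N.H562.QM
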