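import Vale.Agent.P167.N.Kit
import Vale.Agent.P167.N.H562.Q.CB2
import Vale.Agent.P167.H562.Q.CB3
import Vale.Agent.P167.H562.Q.SM3

/-! generated from Vale.Agent.P167.H562.Q.SM3 (q < 1 port) -/

set_option autoImplicit false

namespace Vale.Agent.P167.N.H562.QM

open Vale.Agent.P167.H562.QM Vale.Agent.P167.H562

open Finset Filter Topology MeasureTheory Vale.Agent.P167.FK

open Vale.Agent.P167.FKA (Loc Ind ArmDec)

open Vale.Agent.P167.H519 (IsLim loc_cont Bq_mono exists_Bq)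

open Vale.Agent.P167.H45 (gp BL BL_fin zz zz_box small_box bs_le grid_fin nm_le nm_sub_le cl BL_measR
  nm_sub_comm)

open Vale.Agent.P167.H166 (bxx mem_bxx)

open Vale.Agent.P167.H259 (f_markov)

open Vale.Agent.P167.H562.GL Vale.Agent.P167.H562.SML

open Vale.Agent.P167.H945

/-- The number of the disjoint crossing segments, uniformly in the boundary conditions. -/
theorem crossS_fk {Q : ℝ} (hQ : Kit Q) (h : RSW Q) : ∃ (k : ℤ) (l C : ℝ), 2 ≤ k ∧ 0 < l ∧ 0 < C ∧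
    ∀ (x : ℤ × ℤ) (r : ℤ), 1 ≤ r → ∃ Z : Cfg → ℕ,
    (∀ ω ω' : Cfg, (∀ v, nm (v - x) ≤ k * r → ω v = ω' v) → Z ω = Z ω') ∧
    (∀ (ω : Cfg) (𝓕 : Finset (Finset Ed)), (∀ γ ∈ 𝓕, IsSeg ω γ) →
      (∀ γ ∈ 𝓕, ∀ γ' ∈ 𝓕, γ ≠ γ' → Disjoint γ γ') → (∀ γ ∈ 𝓕, Crs k r x γ) → 𝓕.card ≤ Z ω) ∧
    ∀ (D : Finset (ℤ × ℤ)) (η : Cfg) (G : Cfg → ℝ), Good η → bxx x (k * r) ⊆ D →
      (∀ ω, 0 ≤ G ω) → Ind (bxx x (k * r)) G →
      Ex Q D η (fun ω => G ω * Real.exp (l * (Z ω : ℝ))) ≤ C * Ex Q D η G := by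
  obtain ⟨n, l, C, hn4, hl, hC, hcr⟩ := crossB hQ h
  have hn4' : (4 : ℤ) ≤ n := by exact_mod_cast hn4
  refine ⟨n + 2, l, C, by omega, hl, hC, fun x r hr => ⟨ZC n x r, ?_, ?_, ?_⟩⟩
  · intro ω ω' hω
    exact ZC_loc n x (by omega) hω
  · intro ω 𝓕 hs hd hc
    exact ZC_seg n x hr ω 𝓕 hs hd hc
  · intro D η G hη hD hG0 hG
    have hsub : bxx x (((n : ℤ) + 1) * r) ⊆ bxx x (((n : ℤ) + 2) * r) := fun v hv => by
      rw [mem_bxx] at hv ⊢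
      nlinarith
    exact hcr x r hr D η G hη (fun y a _ hya => oneC_sub (hya.trans (hsub.trans hD))) hG0
      (Ind.mono Finset.inter_subset_right hG)

theorem crossSP {Q : ℝ} (hQ : Kit Q) (h : RSW Q) {P : Measure Cfg} (hP : IsLim Q P) :
    CrossSP P := by
  have hQ_pos := hQ.pos
  obtain ⟨k, l, C, hk, hl, hC, h⟩ := crossS_fk hQ h
  refine ⟨k, l, C, hk, hl, hC, fun x r hr => ?_⟩
  obtain ⟨Z, h1, h2, h3⟩ := h x r hr
  refine ⟨Z, h1, h2, fun B G hG0 hG hI => ?_⟩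
  have hZ : Loc (bxx x (k * r)) (fun ω => Real.exp (l * (Z ω : ℝ))) := fun ω ω' hw => by
    show Real.exp (l * (Z ω : ℝ)) = Real.exp (l * (Z ω' : ℝ))
    rw [h1 ω ω' fun v hv => hw v (mem_bxx.2 hv)]
  refine lim_le hP (A := B ∪ bxx x (k * r)) (B := B) (D0 := bxx x (k * r))
      (GL.Loc.mulU hG hZ) hG fun D hD => ?_
  exact h3 D eta0 G f_good.2.1 hD hG0 hI

end Vale.Agent.P167.N.H562.QM
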